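import Mathlib

/-!
Ordered cochains with coefficients in `ZMod 2`: a cochain on a type `X` is a function on lists of
points.  Coboundary, cup product, prism operator, and indicator cochains of finite label sets.
-/

namespace Crest.Agent.Lib.KyFan

abbrev F2 := ZMod 2

theorem F2.add_self (a : F2) : a + a = 0 := CharTwo.add_self_eq_zero a

/-- Cochains: functions on lists. -/
abbrev Co (X : Type*) := List X → F2

variable {X Y : Type*}

/-- value of the coboundary of `φ` on a list: the sum of `φ` over all one-element deletions. -/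
def cobAux : List X → Co X → F2
  | [], _ => 0
  | x :: l, φ => φ l + cobAux l (fun m => φ (x :: m))

/-- The coboundary. -/
def cob (φ : Co X) : Co X := fun l => cobAux l φ

@[simp] theorem cob_nil (φ : Co X) : cob φ [] = 0 := rfl

theorem cob_cons (φ : Co X) (x : X) (l : List X) :
    cob φ (x :: l) = φ l + cob (fun m => φ (x :: m)) l := rfl

theorem cob_add (φ ψ : Co X) (l : List X) :
    cob (fun m => φ m + ψ m) l = cob φ l + cob ψ l := by
  induction l generalizing φ ψ with
  | nil => simp
  | cons x l ih => rw [cob_cons, cob_cons, cob_cons, ih]; ring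

theorem cob_zero (l : List X) : cob (fun _ => 0) l = 0 := by
  induction l with
  | nil => simp
  | cons x l ih => rw [cob_cons, ih]; simp

theorem cob_mul (a : F2) (φ : Co X) (l : List X) :
    cob (fun m => a * φ m) l = a * cob φ l := by
  induction l generalizing φ with
  | nil => simp
  | cons x l ih => rw [cob_cons, cob_cons, ih]; ring

theorem cob_map (f : X → Y) (φ : Co Y) (l : List X) :
    cob (fun m => φ (m.map f)) l = cob φ (l.map f) := by
  induction l generalizing φ with
  | nil => simp
  | cons x l ih =>
    rw [List.map_cons, cob_cons, cob_cons, ← ih]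
    rfl

theorem cob_congr {φ ψ : Co X} {l : List X}
    (h : ∀ m, m.Sublist l → m.length + 1 = l.length → φ m = ψ m) : cob φ l = cob ψ l := by
  induction l generalizing φ ψ with
  | nil => simp
  | cons x l ih =>
    rw [cob_cons, cob_cons, h l (List.sublist_cons_self x l) rfl]
    congr 1
    apply ih
    intro m hm hl
    exact h (x :: m) (hm.cons_cons x) (by simp [hl])

theorem cob_cob (φ : Co X) (l : List X) : cob (cob φ) l = 0 := by
  induction l generalizing φ with
  | nil => simp
  | cons x l ih =>
    rw [cob_cons]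
    have : (fun m => cob φ (x :: m)) = fun m => φ m + cob (fun m => φ (x :: m)) m := rfl
    rw [this, cob_add, ih, add_zero, F2.add_self]

theorem cob_perm {φ : Co X} (hφ : ∀ l m : List X, l.Perm m → φ l = φ m) {l m : List X}
    (h : l.Perm m) : cob φ l = cob φ m := by
  induction h generalizing φ with
  | nil => rfl
  | cons x h ih =>
    rw [cob_cons, cob_cons, hφ _ _ h, ih]
    intro l m hlm
    exact hφ _ _ (hlm.cons x)
  | swap x y l =>
    simp only [cob_cons]
    have : (fun m => φ (y :: x :: m)) = fun m => φ (x :: y :: m) :=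
      funext fun m => hφ _ _ (List.Perm.swap x y m)
    rw [this]; ring
  | trans _ _ ih1 ih2 => rw [ih1 hφ, ih2 hφ]

theorem cob_dup {φ : Co X} (a : X) (l : List X) (hφ : ∀ m, φ (a :: a :: m) = 0) :
    cob φ (a :: a :: l) = 0 := by
  simp only [cob_cons, hφ, cob_zero, add_zero, F2.add_self]

theorem cob_sum {ι : Type*} (s : Finset ι) (φ : ι → Co X) (l : List X) :
    cob (fun m => ∑ i ∈ s, φ i m) l = ∑ i ∈ s, cob (φ i) l := by
  classical
  induction s using Finset.induction_on with
  | empty => simp [cob_zero]
  | insert a s ha ih => simp only [Finset.sum_insert ha]; rw [cob_add, ih]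

/-- for a list without duplicates the coboundary is the sum over erasures -/
theorem cob_nodup [DecidableEq X] (φ : Co X) {l : List X} (h : l.Nodup) :
    cob φ l = ∑ a ∈ l.toFinset, φ (l.erase a) := by
  induction l generalizing φ with
  | nil => simp
  | cons x l ih =>
    rw [List.nodup_cons] at h
    rw [cob_cons, ih _ h.2, List.toFinset_cons, Finset.sum_insert (by simpa using h.1)]
    simp only [List.erase_cons_head]
    congr 1
    apply Finset.sum_congr rfl
    intro a ha
    have : x ≠ a := by
      rintro rfl
      exact h.1 (by simpa using ha)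
    rw [List.erase_cons_tail (by simpa using this)]

/-! ### cup product -/

def cupAux : List X → Co X → Co X → F2
  | [], _, _ => 0
  | x :: l, φ, ψ => φ [x] * ψ (x :: l) + cupAux l (fun m => φ (x :: m)) ψ

/-- cup product: the sum over all overlapping splittings of a list -/
def cup (φ ψ : Co X) : Co X := fun l => cupAux l φ ψ

@[simp] theorem cup_nil (φ ψ : Co X) : cup φ ψ [] = 0 := rfl

theorem cup_cons (φ ψ : Co X) (x : X) (l : List X) :
    cup φ ψ (x :: l) = φ [x] * ψ (x :: l) + cup (fun m => φ (x :: m)) ψ l := rfl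

theorem cup_add_left (φ φ' ψ : Co X) (l : List X) :
    cup (fun m => φ m + φ' m) ψ l = cup φ ψ l + cup φ' ψ l := by
  induction l generalizing φ φ' with
  | nil => simp
  | cons x l ih => rw [cup_cons, cup_cons, cup_cons, ih]; ring

theorem cup_add_right (φ ψ ψ' : Co X) (l : List X) :
    cup φ (fun m => ψ m + ψ' m) l = cup φ ψ l + cup φ ψ' l := by
  induction l generalizing φ with
  | nil => simp
  | cons x l ih => rw [cup_cons, cup_cons, cup_cons, ih]; ring

theorem cup_zero_left (ψ : Co X) (l : List X) : cup (fun _ => 0) ψ l = 0 := by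
  induction l with
  | nil => simp
  | cons x l ih => rw [cup_cons, ih]; simp

theorem cup_zero_right (φ : Co X) (l : List X) : cup φ (fun _ => 0) l = 0 := by
  induction l generalizing φ with
  | nil => simp
  | cons x l ih => rw [cup_cons, ih]; simp

theorem cup_sum_left {ι : Type*} (s : Finset ι) (φ : ι → Co X) (ψ : Co X) (l : List X) :
    cup (fun m => ∑ i ∈ s, φ i m) ψ l = ∑ i ∈ s, cup (φ i) ψ l := by
  classical
  induction s using Finset.induction_on with
  | empty => simp [cup_zero_left]
  | insert a s ha ih => simp only [Finset.sum_insert ha]; rw [cup_add_left, ih]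

theorem cup_sum_right {ι : Type*} (s : Finset ι) (φ : Co X) (ψ : ι → Co X) (l : List X) :
    cup φ (fun m => ∑ i ∈ s, ψ i m) l = ∑ i ∈ s, cup φ (ψ i) l := by
  classical
  induction s using Finset.induction_on with
  | empty => simp [cup_zero_right]
  | insert a s ha ih => simp only [Finset.sum_insert ha]; rw [cup_add_right, ih]

theorem cob_cup_aux (φ ψ : Co X) (l : List X) :
    cob (cup φ ψ) l = cup (cob φ) ψ l + cup φ (cob ψ) l + φ [] * ψ l + φ l * ψ [] := by
  induction l generalizing φ with
  | nil => simp [F2.add_self]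
  | cons x l ih =>
    rw [cob_cons]
    have h1 : (fun m => cup φ ψ (x :: m)) =
        fun m => φ [x] * ψ (x :: m) + cup (fun m => φ (x :: m)) ψ m := rfl
    have h2 : (fun m => cob φ (x :: m)) = fun m => φ m + cob (fun m => φ (x :: m)) m := rfl
    rw [h1, cob_add, cob_mul, ih, cup_cons, cup_cons, h2, cup_add_left, cob_cons, cob_cons]
    simp only [cob_nil, add_zero]
    have := F2.add_self (φ [] * ψ (x :: l))
    linear_combination (exp := 1) -this

/-- Leibniz rule -/
theorem cob_cup {φ ψ : Co X} (hφ : φ [] = 0) (hψ : ψ [] = 0) (l : List X) :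
    cob (cup φ ψ) l = cup (cob φ) ψ l + cup φ (cob ψ) l := by
  rw [cob_cup_aux, hφ, hψ]; ring

theorem cup_ne_zero {φ ψ : Co X} {l : List X} (h : cup φ ψ l ≠ 0) :
    ∃ l₁ l₂ : List X, l₁ ⊆ l ∧ l₂ ⊆ l ∧ φ l₁ ≠ 0 ∧ ψ l₂ ≠ 0 := by
  induction l generalizing φ with
  | nil => simp at h
  | cons x l ih =>
    rw [cup_cons] at h
    by_cases h1 : φ [x] * ψ (x :: l) = 0
    · rw [h1, zero_add] at h
      obtain ⟨l₁, l₂, a, b, c, d⟩ := ih h
      exact ⟨x :: l₁, l₂, List.cons_subset_cons x a, List.subset_cons_of_subset x b, c, d⟩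
    · exact ⟨[x], x :: l, by simp, List.Subset.refl _, left_ne_zero_of_mul h1,
        right_ne_zero_of_mul h1⟩

/-- the cochain supported on one-point lists given by a function -/
def pt (f : X → F2) : Co X
  | [x] => f x
  | _ => 0

@[simp] theorem pt_nil (f : X → F2) : pt f [] = 0 := rfl
@[simp] theorem pt_single (f : X → F2) (x : X) : pt f [x] = f x := rfl
@[simp] theorem pt_cons_cons (f : X → F2) (x y : X) (l : List X) : pt f (x :: y :: l) = 0 := rfl

theorem cup_eq_zero_of {φ : Co X} (hφ : ∀ x l, φ (x :: l) = 0) (ψ : Co X) (l : List X) :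
    cup φ ψ l = 0 := by
  induction l generalizing φ with
  | nil => simp
  | cons x l ih =>
    rw [cup_cons, hφ, ih (fun y m => hφ x _)]; simp

theorem cup_pt_cons (f : X → F2) (ψ : Co X) (x : X) (l : List X) :
    cup (pt f) ψ (x :: l) = f x * ψ (x :: l) := by
  rw [cup_cons, cup_eq_zero_of (fun y m => pt_cons_cons f x y m)]; simp

theorem cob_pt_ne_zero {f : X → F2} {l : List X} (h : cob (pt f) l ≠ 0) :
    ∃ x ∈ l, ∃ y ∈ l, f x ≠ f y := by
  by_contra hc
  push Not at hc
  apply h
  match l, hc with
  | [], _ => rfl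
  | [x], _ => simp [cob_cons]
  | [x, y], hc =>
    simp only [cob_cons, pt_single, cob_nil, add_zero]
    rw [hc x (by simp) y (by simp), F2.add_self]
  | x :: y :: z :: l, _ =>
    simp only [cob_cons, pt_cons_cons, cob_zero, add_zero]

/-! ### prism operator -/

def prismAux (f g : X → Y) : List X → Co Y → F2
  | [], _ => 0
  | x :: l, φ => φ (f x :: g x :: l.map g) + prismAux f g l (fun m => φ (f x :: m))

/-- The prism operator (dual of the chain homotopy between `f` and `g`). -/
def prism (f g : X → Y) (φ : Co Y) : Co X := fun l => prismAux f g l φ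

@[simp] theorem prism_nil (f g : X → Y) (φ : Co Y) : prism f g φ [] = 0 := rfl

theorem prism_cons (f g : X → Y) (φ : Co Y) (x : X) (l : List X) :
    prism f g φ (x :: l) = φ (f x :: g x :: l.map g) + prism f g (fun m => φ (f x :: m)) l := rfl

theorem prism_add (f g : X → Y) (φ ψ : Co Y) (l : List X) :
    prism f g (fun m => φ m + ψ m) l = prism f g φ l + prism f g ψ l := by
  induction l generalizing φ ψ with
  | nil => simp
  | cons x l ih => rw [prism_cons, prism_cons, prism_cons, ih]; ring

theorem prism_cob (f g : X → Y) (φ : Co Y) (l : List X) :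
    prism f g (cob φ) l = cob (prism f g φ) l + φ (l.map f) + φ (l.map g) := by
  induction l generalizing φ with
  | nil => simp [F2.add_self]
  | cons x l ih =>
    rw [prism_cons, cob_cons (prism f g φ)]
    have h1 : (fun m => cob φ (f x :: m)) = fun m => φ m + cob (fun m => φ (f x :: m)) m := rfl
    have h2 : (fun m => prism f g φ (x :: m)) =
        fun m => (fun m' => φ (f x :: g x :: m')) (m.map g) + prism f g (fun m => φ (f x :: m)) m :=
      rfl
    rw [h1, prism_add, ih, h2, cob_add, cob_map g (fun m' => φ (f x :: g x :: m')), cob_cons, cob_cons]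
    simp only [List.map_cons]
    have := F2.add_self (φ (f x :: l.map g))
    linear_combination (exp := 1) this

theorem prism_ne_zero {f g : X → Y} {φ : Co Y} {l : List X} (h : prism f g φ l ≠ 0) :
    ∃ m : List Y, φ m ≠ 0 ∧ m.length = l.length + 1 ∧ ∀ y ∈ m, ∃ x ∈ l, y = f x ∨ y = g x := by
  induction l generalizing φ with
  | nil => simp at h
  | cons x l ih =>
    rw [prism_cons] at h
    by_cases h1 : φ (f x :: g x :: l.map g) = 0
    · rw [h1, zero_add] at h
      obtain ⟨m, a, b, c⟩ := ih h
      refine ⟨f x :: m, a, by simp [b], ?_⟩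
      intro y hy
      rcases List.mem_cons.1 hy with rfl | hy
      · exact ⟨x, by simp, Or.inl rfl⟩
      · obtain ⟨z, hz, hz'⟩ := c y hy
        exact ⟨z, List.mem_cons_of_mem _ hz, hz'⟩
    · refine ⟨_, h1, by simp, ?_⟩
      intro y hy
      simp only [List.mem_cons, List.mem_map] at hy
      rcases hy with rfl | rfl | ⟨z, hz, rfl⟩
      · exact ⟨x, by simp, Or.inl rfl⟩
      · exact ⟨x, by simp, Or.inr rfl⟩
      · exact ⟨z, List.mem_cons_of_mem _ hz, Or.inr rfl⟩

/-! ### indicator cochains -/

section ind
variable {L : Type*} [DecidableEq L]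

/-- indicator of lists enumerating the finite set `Λ` without repetition -/
def ind (Λ : Finset L) : Co L := fun m => if m.Nodup ∧ m.toFinset = Λ then 1 else 0

theorem ind_ne_zero {Λ : Finset L} {m : List L} (h : ind Λ m ≠ 0) :
    m.Nodup ∧ m.toFinset = Λ := by
  by_contra hc
  exact h (if_neg hc)

theorem ind_perm (Λ : Finset L) (l m : List L) (h : l.Perm m) : ind Λ l = ind Λ m := by
  unfold ind
  simp only [h.nodup_iff, List.toFinset_eq_of_perm _ _ h]

theorem ind_nil {Λ : Finset L} (h : Λ.Nonempty) : ind Λ [] = 0 := by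
  unfold ind
  rw [if_neg]
  rintro ⟨-, h'⟩
  simp at h'
  exact h.ne_empty h'.symm

theorem exists_perm_dup {m : List L} (h : ¬ m.Nodup) : ∃ a r, m.Perm (a :: a :: r) := by
  rw [List.nodup_iff_count_le_one] at h
  push Not at h
  obtain ⟨a, ha⟩ := h
  have h1 : a ∈ m := List.count_pos_iff.1 (by omega)
  have h2 : a ∈ m.erase a := List.count_pos_iff.1 (by rw [List.count_erase_self]; omega)
  exact ⟨a, _, (List.perm_cons_erase h1).trans ((List.perm_cons_erase h2).cons a)⟩

theorem cob_ind [Fintype L] (Λ : Finset L) (m : List L) :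
    cob (ind Λ) m = ∑ j ∈ Λᶜ, ind (insert j Λ) m := by
  by_cases h : m.Nodup
  · rw [cob_nodup _ h]
    have e1 : ∀ a ∈ m.toFinset, ind Λ (m.erase a) = if m.toFinset.erase a = Λ then 1 else 0 := by
      intro a _
      unfold ind
      have : (m.erase a).toFinset = m.toFinset.erase a := by
        ext b; simp [h.mem_erase_iff]
      simp [h.erase a, this]
    have e2 : ∀ j ∈ Λᶜ, ind (insert j Λ) m = if m.toFinset = insert j Λ then 1 else 0 := by
      intro j _
      unfold ind
      simp [h]
    rw [Finset.sum_congr rfl e1, Finset.sum_congr rfl e2, ← Finset.sum_filter, ← Finset.sum_filter]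
    congr 1
    ext a
    simp only [Finset.mem_filter, Finset.mem_compl]
    constructor
    · rintro ⟨h1, rfl⟩
      exact ⟨Finset.notMem_erase a _, (Finset.insert_erase h1).symm⟩
    · rintro ⟨h1, h2⟩
      rw [h2]
      exact ⟨Finset.mem_insert_self _ _, Finset.erase_insert h1⟩
  · obtain ⟨a, r, hp⟩ := exists_perm_dup h
    rw [cob_perm (ind_perm Λ) hp, cob_dup]
    · symm
      apply Finset.sum_eq_zero
      intro j _
      unfold ind
      simp [h]
    · intro m
      unfold ind
      simp

end ind

/-! ### alternating cochains -/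

/-- `(w, ψ)`: `w` is the indicator of alternating sign lists, `ψ` of those starting with `1`. -/
def altP : List F2 → F2 × F2
  | [] => (0, 1)
  | s :: l => (s * (altP l).1 + (altP l).2, s * (s * (altP l).1 + (altP l).2))

def altW : Co F2 := fun l => (altP l).1
def altS : Co F2 := fun l => (altP l).2

theorem altW_cons (s : F2) (l : List F2) : altW (s :: l) = s * altW l + altS l := rfl
theorem altS_cons (s : F2) (l : List F2) : altS (s :: l) = s * (s * altW l + altS l) := rfl

theorem cob_alt (l : List F2) : cob altW l = 0 ∧ cob altS l = altW l := by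
  induction l with
  | nil => exact ⟨rfl, rfl⟩
  | cons s l ih =>
    have h1 : (fun m => altW (s :: m)) = fun m => s * altW m + altS m := rfl
    have h2 : (fun m => altS (s :: m)) = fun m => s * (s * altW m + altS m) := rfl
    rw [cob_cons, cob_cons, h1, h2, cob_mul, cob_add, cob_mul, ih.1, ih.2, altW_cons]
    constructor
    · rw [mul_zero, zero_add, F2.add_self]
    · ring

theorem alt_flip (l : List F2) :
    altW (l.map (· + 1)) = altW l ∧ altS (l.map (· + 1)) = altS l + altW l := by
  induction l with
  | nil => exact ⟨rfl, by simp [altS, altW, altP]⟩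
  | cons s l ih =>
    rw [List.map_cons, altW_cons, altS_cons, altW_cons, altS_cons, ih.1, ih.2]
    have := F2.add_self (altW l)
    constructor
    · linear_combination (exp := 1) this
    · linear_combination (exp := 1) (s + 1) * this

section srt
variable {ι : Type*} [LinearOrder ι]

/-- signed labels -/
abbrev Lab (ι : Type*) := ι × F2

/-- the opposite label -/
def opp (a : Lab ι) : Lab ι := (a.1, a.2 + 1)

omit [LinearOrder ι] in
theorem opp_opp (a : Lab ι) : opp (opp a) = a := by
  rcases a with ⟨i, s⟩
  simp [opp, add_assoc, F2.add_self]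

/-- sort a list of labels by colour -/
def srt (m : List (Lab ι)) : List (Lab ι) := m.insertionSort (fun a b => a.1 ≤ b.1)

theorem srt_perm (m : List (Lab ι)) : (srt m).Perm m := List.perm_insertionSort _ _

theorem srt_pairwise (m : List (Lab ι)) : (srt m).Pairwise (fun a b => a.1 ≤ b.1) := by
  have : Std.Total (fun a b : Lab ι => a.1 ≤ b.1) := ⟨fun a b => le_total _ _⟩
  have : IsTrans (Lab ι) (fun a b : Lab ι => a.1 ≤ b.1) := ⟨fun a b c => le_trans⟩
  exact List.pairwise_insertionSort _ _

theorem srt_eq {l m : List (Lab ι)} (h : l.Perm m) (hn : (l.map Prod.fst).Nodup)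
    (hm : m.Pairwise (fun a b => a.1 ≤ b.1)) : srt l = m := by
  refine List.Perm.eq_of_pairwise ?_ (srt_pairwise l) hm ((srt_perm l).trans h)
  intro a b ha hb hab hba
  exact List.inj_on_of_nodup_map hn ((srt_perm l).subset ha) (h.symm.subset hb)
    (le_antisymm hab hba)

/-- the sorted extension of a cochain on labels -/
def ext (ψ : Co (Lab ι)) : Co (Lab ι) :=
  fun m => if (m.map Prod.fst).Nodup then ψ (srt m) else 0

theorem ext_perm (ψ : Co (Lab ι)) (l m : List (Lab ι)) (h : l.Perm m) : ext ψ l = ext ψ m := by
  unfold ext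
  by_cases hn : (l.map Prod.fst).Nodup
  · rw [if_pos hn, if_pos ((h.map _).nodup_iff.1 hn),
      srt_eq (h.trans (srt_perm m).symm) hn (srt_pairwise m)]
  · rw [if_neg hn, if_neg (fun h' => hn ((h.map _).nodup_iff.2 h'))]

theorem cob_ext (ψ : Co (Lab ι)) {m : List (Lab ι)} (hm : ∀ a ∈ m, ∀ b ∈ m, a.1 = b.1 → a = b) :
    cob (ext ψ) m = ext (cob ψ) m := by
  by_cases hn : (m.map Prod.fst).Nodup
  · rw [cob_perm (ext_perm ψ) (srt_perm m).symm]
    have : ext (cob ψ) m = cob ψ (srt m) := if_pos hn
    rw [this]
    apply cob_congr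
    intro r hr _
    have hn' : (r.map Prod.fst).Nodup :=
      (((srt_perm m).map _).nodup_iff.2 hn).sublist (hr.map _)
    unfold ext
    rw [if_pos hn', srt_eq (List.Perm.refl r) hn' ((srt_pairwise m).sublist hr)]
  · have : ext (cob ψ) m = 0 := if_neg hn
    rw [this]
    have hd : ¬ m.Nodup := fun h => hn (List.Nodup.map_on hm h)
    obtain ⟨a, r, hp⟩ := exists_perm_dup hd
    rw [cob_perm (ext_perm ψ) hp, cob_dup]
    intro m
    unfold ext
    simp

theorem ext_opp (ψ : Co (Lab ι)) (m : List (Lab ι)) :
    ext ψ (m.map opp) = ext (fun r => ψ (r.map opp)) m := by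
  unfold ext
  have h1 : (m.map opp).map Prod.fst = m.map Prod.fst := by
    rw [List.map_map]; rfl
  rw [h1]
  by_cases hn : (m.map Prod.fst).Nodup
  · rw [if_pos hn, if_pos hn, srt_eq ((srt_perm m).symm.map opp) (h1 ▸ hn)]
    rw [List.pairwise_map]
    exact srt_pairwise m
  · rw [if_neg hn, if_neg hn]

/-- Ky Fan's alternating cochain -/
def kf : Co (Lab ι) := ext (fun r => altS (r.map Prod.snd))

theorem kf_add_opp {m : List (Lab ι)} (hm : ∀ a ∈ m, ∀ b ∈ m, a.1 = b.1 → a = b) :
    kf m + kf (m.map opp) = cob kf m := by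
  unfold kf
  rw [cob_ext _ hm, ext_opp]
  unfold ext
  split_ifs with hn
  · rw [cob_map Prod.snd altS, (cob_alt _).2]
    have : ((srt m).map opp).map Prod.snd = ((srt m).map Prod.snd).map (· + 1) := by
      rw [List.map_map, List.map_map]; rfl
    simp only []
    rw [this, (alt_flip _).2, ← add_assoc, F2.add_self, zero_add]
  · simp

theorem kf_nil : kf ([] : List (Lab ι)) = 1 := by
  simp [kf, ext, srt, altS, altP]

/-- the facet of the cross-polytope given by a sign vector -/
def facet [Fintype ι] (σ : ι → F2) : Finset (Lab ι) :=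
  Finset.univ.image (fun i => (i, σ i))

theorem mem_facet [Fintype ι] {σ : ι → F2} {a : Lab ι} : a ∈ facet σ ↔ a.2 = σ a.1 := by
  unfold facet
  simp only [Finset.mem_image, Finset.mem_univ, true_and]
  constructor
  · rintro ⟨i, rfl⟩; rfl
  · intro h; exact ⟨a.1, by rw [← h]⟩

theorem facet_injective [Fintype ι] : Function.Injective (facet : (ι → F2) → _) := by
  intro σ τ h
  funext i
  have : (i, σ i) ∈ facet σ := mem_facet.2 rfl
  rw [h] at this
  exact mem_facet.1 this

/-- on lists of full length, `kf` is a combination of facet indicators -/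
theorem kf_eq_sum [Fintype ι] : ∃ c : (ι → F2) → F2, ∀ m : List (Lab ι),
    m.length = Fintype.card ι → kf m = ∑ σ, c σ * ind (facet σ) m := by
  classical
  refine ⟨fun σ => kf (facet σ).toList, fun m hm => ?_⟩
  by_cases hn : (m.map Prod.fst).Nodup
  · have hall : ∀ i, ∃ s, (i, s) ∈ m := by
      intro i
      have : (m.map Prod.fst).toFinset = Finset.univ := by
        apply Finset.eq_univ_of_card
        rw [List.toFinset_card_of_nodup hn, List.length_map, hm]
      have hi : i ∈ (m.map Prod.fst).toFinset := this ▸ Finset.mem_univ i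
      simp only [List.mem_toFinset, List.mem_map] at hi
      obtain ⟨⟨j, s⟩, h1, rfl⟩ := hi
      exact ⟨s, h1⟩
    choose σ hσ using hall
    have hmσ : m.toFinset = facet σ := by
      ext a
      rw [List.mem_toFinset, mem_facet]
      constructor
      · intro ha
        have := List.inj_on_of_nodup_map hn ha (hσ a.1) rfl
        rw [this]
      · intro ha
        have := hσ a.1
        rwa [← ha] at this
    have hnd : m.Nodup := hn.of_map _
    rw [Finset.sum_eq_single σ]
    · have : ind (facet σ) m = 1 := if_pos ⟨hnd, hmσ⟩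
      rw [this, mul_one]
      apply ext_perm
      rw [← hmσ]
      exact (List.toFinset_toList hnd).symm
    · intro τ _ hτ
      have : ind (facet τ) m = 0 := if_neg (fun h => hτ (facet_injective (h.2.symm.trans hmσ)))
      rw [this, mul_zero]
    · simp
  · have : kf m = 0 := if_neg hn
    rw [this]
    symm
    apply Finset.sum_eq_zero
    intro σ _
    have : ind (facet σ) m = 0 := by
      apply if_neg
      rintro ⟨h1, h2⟩
      apply hn
      apply List.Nodup.map_on _ h1
      intro a ha b hb hab
      have ha' : a ∈ facet σ := h2 ▸ List.mem_toFinset.2 ha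
      have hb' : b ∈ facet σ := h2 ▸ List.mem_toFinset.2 hb
      rw [mem_facet] at ha' hb'
      exact Prod.ext hab (by rw [ha', hb', hab])
    rw [this, mul_zero]

end srt

end Crest.Agent.Lib.KyFan
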