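import Mathlib
import Crest.Agent.Lib.KyFan.Chains

/-!
The fundamental mod 2 cycle of the `ℓ¹` sphere at an arbitrarily fine scale, built from hemisphere
sweeps, and Ky Fan's parity theorem for antipodal labellings.
-/

namespace Crest.Agent.Lib.KyFan

open Finset

variable {N : ℕ}

/-- the `ℓ¹` unit sphere -/
def sph (N : ℕ) : Set (Fin N → ℝ) := {v | ∑ i, |v i| = 1}

theorem sph_abs_le {v : Fin N → ℝ} (hv : v ∈ sph N) (i : Fin N) : |v i| ≤ 1 := by
  have h : ∑ i, |v i| = 1 := hv
  rw [← h]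
  exact Finset.single_le_sum (f := fun i => |v i|) (fun j _ => abs_nonneg _) (mem_univ i)

theorem sph_neg {v : Fin N → ℝ} (hv : v ∈ sph N) : -v ∈ sph N := by
  have h : ∑ i, |v i| = 1 := hv
  simpa [sph] using h

theorem sph_ne_zero {v : Fin N → ℝ} (hv : v ∈ sph N) : v ≠ 0 := by
  rintro rfl
  simp [sph] at hv

theorem isClosed_sph : IsClosed (sph N) :=
  isClosed_eq (by fun_prop) continuous_const

theorem isCompact_sph : IsCompact (sph N) := by
  apply Metric.isCompact_of_isClosed_isBounded isClosed_sph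
  apply (Metric.isBounded_closedBall (x := (0 : Fin N → ℝ)) (r := 1)).subset
  intro v hv
  rw [mem_closedBall_zero_iff, pi_norm_le_iff_of_nonneg zero_le_one]
  exact fun i => sph_abs_le hv i

/-- the pole -/
def pole (N k : ℕ) : Fin N → ℝ := fun i => if (i : ℕ) = k then 1 else 0

/-- straight-line homotopy towards the pole -/
noncomputable def hmt (M k t : ℕ) (x : Fin N → ℝ) : Fin N → ℝ :=
  fun i => (1 - (t : ℝ) / M) * x i + (t : ℝ) / M * pole N k i

/-- the sweep (dual of the cone with apex the pole) -/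
noncomputable def sweep (M k : ℕ) (φ : Co (Fin N → ℝ)) : Co (Fin N → ℝ) :=
  fun l => ∑ t ∈ range M, prism (hmt M k t) (hmt M k (t + 1)) φ l

theorem sum_range_telescope (a : ℕ → F2) (M : ℕ) :
    ∑ t ∈ range M, (a t + a (t + 1)) = a 0 + a M := by
  induction M with
  | zero => simp [F2.add_self]
  | succ M ih =>
    rw [sum_range_succ, ih]
    have := F2.add_self (a M)
    linear_combination (exp := 1) this

theorem sweep_add (M k : ℕ) (φ ψ : Co (Fin N → ℝ)) (l : List (Fin N → ℝ)) :
    sweep M k (fun m => φ m + ψ m) l = sweep M k φ l + sweep M k ψ l := by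
  simp only [sweep, prism_add, sum_add_distrib]

theorem sweep_cob {M : ℕ} (hM : 0 < M) (k : ℕ) (φ : Co (Fin N → ℝ)) (l : List (Fin N → ℝ)) :
    sweep M k (cob φ) l = cob (sweep M k φ) l + φ l + φ (l.map (fun _ => pole N k)) := by
  have h0 : hmt (N := N) M k 0 = id := by
    funext x i; simp [hmt]
  have h1 : hmt (N := N) M k M = fun _ => pole N k := by
    funext x i
    have : (M : ℝ) ≠ 0 := by positivity
    simp [hmt, div_self this]
  unfold sweep
  rw [cob_sum]
  simp only [prism_cob, add_assoc]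
  rw [sum_add_distrib, sum_range_telescope (fun t => φ (l.map (hmt M k t))), h0, h1, List.map_id]

/-- evaluation on the `k`-dimensional upper hemisphere chain -/
noncomputable def hemi (M : ℕ) : ℕ → Co (Fin N → ℝ) → F2
  | 0, φ => φ [pole N 0]
  | k + 1, φ => hemi M k (sweep M (k + 1) φ) +
      hemi M k (fun l => sweep M (k + 1) φ (l.map Neg.neg))

/-- evaluation on the `k`-dimensional sphere cycle -/
noncomputable def cyc (M k : ℕ) (φ : Co (Fin N → ℝ)) : F2 :=
  hemi M k φ + hemi M k (fun l => φ (l.map Neg.neg))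

theorem hemi_succ (M k : ℕ) (φ : Co (Fin N → ℝ)) :
    hemi M (k + 1) φ = cyc M k (sweep M (k + 1) φ) := rfl

theorem hemi_add (M k : ℕ) (φ ψ : Co (Fin N → ℝ)) :
    hemi M k (fun m => φ m + ψ m) = hemi M k φ + hemi M k ψ := by
  induction k generalizing φ ψ with
  | zero => rfl
  | succ k ih =>
    simp only [hemi]
    have h1 : sweep M (k + 1) (fun m => φ m + ψ m) =
        fun m => sweep M (k + 1) φ m + sweep M (k + 1) ψ m := funext (sweep_add M _ φ ψ)
    rw [h1, ih, ih]; ring

theorem cyc_add (M k : ℕ) (φ ψ : Co (Fin N → ℝ)) :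
    cyc M k (fun m => φ m + ψ m) = cyc M k φ + cyc M k ψ := by
  unfold cyc
  rw [hemi_add, hemi_add]; ring

theorem cyc_of_even (M k : ℕ) {φ : Co (Fin N → ℝ)} (h : ∀ l, φ (l.map Neg.neg) = φ l) :
    cyc M k φ = 0 := by
  unfold cyc
  rw [funext h, F2.add_self]

theorem cyc_neg (M k : ℕ) (φ : Co (Fin N → ℝ)) :
    cyc M k (fun l => φ (l.map Neg.neg)) = cyc M k φ := by
  unfold cyc
  simp only [List.map_map]
  have : (Neg.neg ∘ Neg.neg : (Fin N → ℝ) → (Fin N → ℝ)) = id := by funext x; simp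
  simp only [this, List.map_id]
  ring

theorem cyc_cob {M : ℕ} (hM : 0 < M) (k : ℕ) :
    (∀ φ : Co (Fin N → ℝ), cyc M k (cob φ) = 0) ∧
      ∀ φ : Co (Fin N → ℝ), hemi M (k + 1) (cob φ) = cyc M k φ := by
  have step : ∀ k, (∀ φ : Co (Fin N → ℝ), cyc M k (cob φ) = 0) →
      ∀ φ : Co (Fin N → ℝ), hemi M (k + 1) (cob φ) = cyc M k φ := by
    intro k hk φ
    rw [hemi_succ, funext (sweep_cob hM (k + 1) φ), cyc_add, cyc_add, hk, zero_add,
      cyc_of_even M k (φ := fun l => φ (l.map (fun _ => pole N (k + 1)))), add_zero]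
    intro l
    simp only [List.map_map]
    rfl
  induction k with
  | zero =>
    have : ∀ φ : Co (Fin N → ℝ), cyc M 0 (cob φ) = 0 := by
      intro φ
      simp [cyc, hemi, cob_cons, F2.add_self]
    exact ⟨this, step 0 this⟩
  | succ k ih =>
    have : ∀ φ : Co (Fin N → ℝ), cyc M (k + 1) (cob φ) = 0 := by
      intro φ
      unfold cyc
      have : (fun l => cob φ (l.map Neg.neg)) = cob (fun m => φ (m.map Neg.neg)) :=
        funext fun l => (cob_map _ _ _).symm
      rw [this, ih.2, ih.2, cyc_neg, F2.add_self]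
    exact ⟨this, step _ this⟩

/-- lists that can occur in the `k`-th hemisphere chain -/
def Good (M k : ℕ) (l : List (Fin N → ℝ)) : Prop :=
  l.length = k + 1 ∧ (∀ x ∈ l, x ∈ sph N ∧ ∀ i : Fin N, k < (i : ℕ) → x i = 0) ∧
    ∀ x ∈ l, ∀ y ∈ l, dist x y ≤ 2 * k / M

theorem Good.neg {M k : ℕ} {l : List (Fin N → ℝ)} (h : Good M k l) :
    Good M k (l.map Neg.neg) := by
  refine ⟨by simpa using h.1, ?_, ?_⟩
  · intro x hx
    obtain ⟨y, hy, rfl⟩ := List.mem_map.1 hx
    exact ⟨sph_neg (h.2.1 y hy).1, fun i hi => by simp [(h.2.1 y hy).2 i hi]⟩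
  · intro x hx y hy
    obtain ⟨x', hx', rfl⟩ := List.mem_map.1 hx
    obtain ⟨y', hy', rfl⟩ := List.mem_map.1 hy
    rw [dist_neg_neg]
    exact h.2.2 _ hx' _ hy'

theorem hmt_mem {M k t : ℕ} (hM : 0 < M) (ht : t ≤ M) (hk : k + 1 < N) {x : Fin N → ℝ}
    (hx : x ∈ sph N ∧ ∀ i : Fin N, k < (i : ℕ) → x i = 0) :
    hmt M (k + 1) t x ∈ sph N ∧ ∀ i : Fin N, k + 1 < (i : ℕ) → hmt M (k + 1) t x i = 0 := by
  have hM' : (0 : ℝ) < M := by exact_mod_cast hM
  have h0 : 0 ≤ (t : ℝ) / M := by positivity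
  have h1 : (t : ℝ) / M ≤ 1 := by rw [div_le_one hM']; exact_mod_cast ht
  constructor
  · have h : ∑ i, |x i| = 1 := hx.1
    have e : ∀ i, |hmt M (k + 1) t x i| =
        (1 - (t : ℝ) / M) * |x i| + (t : ℝ) / M * (if i = ⟨k + 1, hk⟩ then 1 else 0) := by
      intro i
      unfold hmt pole
      by_cases hi : i = ⟨k + 1, hk⟩
      · subst hi
        simp [hx.2 ⟨k + 1, hk⟩ (by simp), abs_of_nonneg h0]
      · have : (i : ℕ) ≠ k + 1 := fun h => hi (Fin.ext h)
        simp [hi, this, abs_mul, abs_of_nonneg (sub_nonneg.2 h1)]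
    change ∑ i, |hmt M (k + 1) t x i| = 1
    simp only [e, sum_add_distrib, ← mul_sum, h]
    simp
  · intro i hi
    unfold hmt pole
    have : (i : ℕ) ≠ k + 1 := by omega
    simp [this, hx.2 i (by omega)]

theorem hmt_dist {M k s t : ℕ} (hM : 0 < M) (hs : s ≤ M) (hst : |(s : ℝ) - t| ≤ 1)
    {x y : Fin N → ℝ} (hy : y ∈ sph N) {r : ℝ} (hr : dist x y ≤ r) :
    dist (hmt M k s x) (hmt M k t y) ≤ r + 2 / M := by
  have hM' : (0 : ℝ) < M := by exact_mod_cast hM
  have h0 : 0 ≤ (s : ℝ) / M := by positivity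
  have h1 : (s : ℝ) / M ≤ 1 := by rw [div_le_one hM']; exact_mod_cast hs
  have hr0 : 0 ≤ r := dist_nonneg.trans hr
  rw [dist_pi_le_iff (by positivity)]
  intro i
  have h2 : |x i - y i| ≤ r := by
    rw [← Real.dist_eq]; exact (dist_le_pi_dist x y i).trans hr
  have h3 : |pole N k i - y i| ≤ 2 := by
    have := sph_abs_le hy i
    have h4 : |pole N k i| ≤ 1 := by unfold pole; split_ifs <;> simp
    calc |pole N k i - y i| ≤ |pole N k i| + |y i| := abs_sub _ _
      _ ≤ 2 := by linarith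
  rw [Real.dist_eq]
  have e : hmt M k s x i - hmt M k t y i =
      (1 - (s : ℝ) / M) * (x i - y i) + ((s : ℝ) - t) * (pole N k i - y i) / M := by
    unfold hmt; field_simp; ring
  rw [e]
  calc _ ≤ |(1 - (s : ℝ) / M) * (x i - y i)| + |((s : ℝ) - t) * (pole N k i - y i) / M| :=
        abs_add_le _ _
    _ = (1 - (s : ℝ) / M) * |x i - y i| + |(s : ℝ) - t| * |pole N k i - y i| / M := by
        rw [abs_mul, abs_div, abs_mul, abs_of_nonneg (sub_nonneg.2 h1), abs_of_pos hM']
    _ ≤ 1 * r + 1 * 2 / M := by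
        gcongr
        linarith
    _ = r + 2 / M := by ring

theorem hemi_ne_zero {M : ℕ} (hM : 0 < M) {k : ℕ} (hk : k < N) {φ : Co (Fin N → ℝ)}
    (h : hemi M k φ ≠ 0) : ∃ l, Good M k l ∧ φ l ≠ 0 := by
  induction k generalizing φ with
  | zero =>
    refine ⟨[pole N 0], ⟨rfl, ?_, ?_⟩, h⟩
    · intro x hx
      rw [List.mem_singleton] at hx
      subst hx
      constructor
      · change ∑ i, |pole N 0 i| = 1
        rw [Finset.sum_eq_single ⟨0, hk⟩]
        · simp [pole]
        · intro i _ hi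
          have : (i : ℕ) ≠ 0 := fun h => hi (Fin.ext h)
          simp [pole, this]
        · simp
      · intro i hi
        have : (i : ℕ) ≠ 0 := by omega
        simp [pole, this]
    · intro x hx y hy
      rw [List.mem_singleton] at hx hy
      simp [hx, hy]
  | succ k ih =>
    have key : ∃ l, Good M k l ∧ sweep M (k + 1) φ l ≠ 0 := by
      simp only [hemi] at h
      by_cases h1 : hemi M k (sweep M (k + 1) φ) = 0
      · rw [h1, zero_add] at h
        obtain ⟨l, hl, hl'⟩ := ih (by omega) h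
        exact ⟨_, hl.neg, hl'⟩
      · exact ih (by omega) h1
    obtain ⟨l, hl, hl'⟩ := key
    obtain ⟨t, ht, ht'⟩ := Finset.exists_ne_zero_of_sum_ne_zero hl'
    rw [mem_range] at ht
    obtain ⟨m, hm, hlen, hmem⟩ := prism_ne_zero ht'
    refine ⟨m, ⟨by rw [hlen, hl.1], ?_, ?_⟩, hm⟩
    · intro y hy
      obtain ⟨x, hx, rfl | rfl⟩ := hmem y hy
      · exact hmt_mem hM (by omega) hk (hl.2.1 x hx)
      · exact hmt_mem hM (by omega) hk (hl.2.1 x hx)
    · intro y hy y' hy'
      have e : (2 * ((k + 1 : ℕ) : ℝ) / M) = 2 * k / M + 2 / M := by push_cast; ring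
      rw [e]
      obtain ⟨x, hx, rfl | rfl⟩ := hmem y hy <;> obtain ⟨x', hx', rfl | rfl⟩ := hmem y' hy' <;>
        refine hmt_dist hM (by omega) ?_ (hl.2.1 x' hx').1 (hl.2.2 x hx x' hx') <;> simp

theorem cyc_ne_zero {M : ℕ} (hM : 0 < M) {k : ℕ} (hk : k < N) {φ : Co (Fin N → ℝ)}
    (h : cyc M k φ ≠ 0) : ∃ l, Good M k l ∧ φ l ≠ 0 := by
  unfold cyc at h
  by_cases h1 : hemi M k φ = 0
  · rw [h1, zero_add] at h
    obtain ⟨l, hl, hl'⟩ := hemi_ne_zero hM hk h
    exact ⟨_, hl.neg, hl'⟩
  · exact hemi_ne_zero hM hk h1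

theorem F2.eq_of_add_eq_zero {a b : F2} (h : a + b = 0) : a = b := by
  have := F2.add_self b
  linear_combination (exp := 1) h - this

theorem F2.eq_one_of_ne_zero {a : F2} (h : a ≠ 0) : a = 1 := by
  revert a; decide

theorem F2.eq_add_one_of_ne {a b : F2} (h : a ≠ b) : b = a + 1 := by
  revert a b; decide

theorem hemi_congr {M : ℕ} (hM : 0 < M) {k : ℕ} (hk : k < N) {φ ψ : Co (Fin N → ℝ)}
    (h : ∀ l, Good M k l → φ l = ψ l) : hemi M k φ = hemi M k ψ := by
  apply F2.eq_of_add_eq_zero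
  rw [← hemi_add]
  by_contra hc
  obtain ⟨l, hl, hl'⟩ := hemi_ne_zero hM hk hc
  exact hl' (by rw [h l hl, F2.add_self])

/-- A Lebesgue number for a finite family of closed sets. -/
theorem exists_lebesgue {Z : Type*} [PseudoMetricSpace Z] {K : Set Z} (hK : IsCompact K)
    {κ : Type*} [Finite κ] (G : κ → Set Z) (hG : ∀ k, IsClosed (G k)) :
    ∃ ε > 0, ∀ x ∈ K, ∃ v ∈ K, ∀ y, dist y x < ε → ∀ k, y ∈ G k → v ∈ G k := by
  have hopen : ∀ v : K, IsOpen (⋂ k : {k // (v : Z) ∉ G k}, (G k)ᶜ) := fun v =>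
    isOpen_iInter_of_finite fun k => (hG k).isOpen_compl
  obtain ⟨ε, hε, h⟩ := lebesgue_number_lemma_of_metric hK hopen (by
    intro x hx
    simp only [Set.mem_iUnion, Set.mem_iInter]
    exact ⟨⟨x, hx⟩, fun k => k.2⟩)
  refine ⟨ε, hε, fun x hx => ?_⟩
  obtain ⟨v, hv⟩ := h x hx
  refine ⟨v, v.2, fun y hy k hk => ?_⟩
  by_contra hc
  have := hv (Metric.mem_ball.2 hy)
  simp only [Set.mem_iInter] at this
  exact this ⟨k, hc⟩ hk

/-- Ky Fan's parity theorem at the level of the hemisphere chains. -/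
theorem cyc_kf {M : ℕ} (hM : 0 < M) (lam : (Fin N → ℝ) → Lab (Fin N))
    (hodd : ∀ x ∈ sph N, lam (-x) = opp (lam x))
    (hnc : ∀ k < N, ∀ l, Good M k l → ∀ x ∈ l, ∀ y ∈ l, (lam x).1 = (lam y).1 → lam x = lam y)
    {k : ℕ} (hk : k < N) : cyc M k (fun l => kf (l.map lam)) = 1 := by
  have key : ∀ k < N, cyc M k (fun l => kf (l.map lam)) =
      hemi M k (cob (fun l => kf (l.map lam))) := by
    intro k hk
    unfold cyc
    rw [← hemi_add]
    apply hemi_congr hM hk
    intro l hl
    rw [cob_map lam kf, ← kf_add_opp]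
    · simp only []
      congr 2
      rw [List.map_map, List.map_map]
      apply List.map_congr_left
      intro x hx
      exact hodd x (hl.2.1 x hx).1
    · intro a ha b hb hab
      obtain ⟨x, hx, rfl⟩ := List.mem_map.1 ha
      obtain ⟨y, hy, rfl⟩ := List.mem_map.1 hb
      exact hnc k hk l hl x hx y hy hab
  induction k with
  | zero =>
    rw [key 0 hk]
    simp [hemi, cob_cons, kf_nil]
  | succ k ih =>
    rw [key _ hk, (cyc_cob hM k).2, ih (by omega)]

theorem exists_odd_label (P : Lab (Fin N) → Set (Fin N → ℝ)) (hN : 0 < N)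
    (cover : ∀ x ∈ sph N, ∃ a, x ∈ P a) (symm : ∀ a x, x ∈ P a → -x ∈ P (opp a)) :
    ∃ lam : (Fin N → ℝ) → Lab (Fin N), (∀ x ∈ sph N, x ∈ P (lam x)) ∧
      ∀ x ∈ sph N, lam (-x) = opp (lam x) := by
  classical
  have : Nonempty (Lab (Fin N)) := ⟨(⟨0, hN⟩, 0)⟩
  choose! f hf using cover
  let rep : (Fin N → ℝ) → (Fin N → ℝ) := fun x => Classical.epsilon (fun y => y = x ∨ y = -x)
  have h1 : ∀ x, rep x = x ∨ rep x = -x := fun x =>
    Classical.epsilon_spec (p := fun y => y = x ∨ y = -x) ⟨x, Or.inl rfl⟩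
  have h2 : ∀ x, rep (-x) = rep x := fun x => by
    simp only [rep, neg_neg, or_comm]
  refine ⟨fun x => if rep x = x then f x else opp (f (-x)), ?_, ?_⟩
  · intro x hx
    dsimp only
    split_ifs
    · exact hf x hx
    · simpa using symm _ _ (hf _ (sph_neg hx))
  · intro x hx
    have hne : x ≠ -x := by
      intro h
      apply sph_ne_zero hx
      funext i
      have := congrFun h i
      simp only [Pi.neg_apply] at this
      simp only [Pi.zero_apply]
      linarith
    dsimp only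
    rw [h2, neg_neg]
    rcases h1 x with h | h
    · rw [if_neg (by rw [h]; exact hne), if_pos h]
    · rw [if_pos h, if_neg (by rw [h]; exact hne.symm), opp_opp]

/-- **Ky Fan's theorem, functional form.**  Let the `ℓ¹` sphere in `ℝ^N` be covered by closed sets
`P (i, s)`, with `P (i, s + 1) = - P (i, s)` disjoint from `P (i, s)`.  Then there is a labelling
and a mod 2 cycle, supported on lists that are small with respect to the sets `P` and any further
finite family of closed sets `G`, on which every facet indicator takes the value `1`. -/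
theorem kyFan (hN : 0 < N) {κ : Type*} [Finite κ] (G : κ → Set (Fin N → ℝ))
    (hG : ∀ k, IsClosed (G k)) (P : Lab (Fin N) → Set (Fin N → ℝ)) (hP : ∀ a, IsClosed (P a))
    (cover : ∀ x ∈ sph N, ∃ a, x ∈ P a) (symm : ∀ a x, x ∈ P a → -x ∈ P (opp a))
    (disj : ∀ a, ∀ x ∈ sph N, x ∈ P a → x ∉ P (opp a)) :
    ∃ (lam : (Fin N → ℝ) → Lab (Fin N)) (I : Co (Fin N → ℝ) →+ F2),
      (∀ φ, I (cob φ) = 0) ∧
      (∀ φ, I φ ≠ 0 → ∃ l, φ l ≠ 0 ∧ l ≠ [] ∧ (∀ x ∈ l, x ∈ sph N) ∧
        ∃ v ∈ sph N, ∀ x ∈ l, v ∈ P (lam x) ∧ ∀ k, x ∈ G k → v ∈ G k) ∧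
      ∀ σ, I (fun l => ind (facet σ) (l.map lam)) = 1 := by
  classical
  obtain ⟨lam, hlam, hodd⟩ := exists_odd_label P hN cover symm
  obtain ⟨ε, hε, hleb⟩ := exists_lebesgue (isCompact_sph (N := N)) (Sum.elim G P)
    (by rintro (k | a); exacts [hG k, hP a])
  obtain ⟨M, hM⟩ := exists_nat_gt (2 * N / ε)
  have hM0 : 0 < M := by
    have : (0 : ℝ) < M := lt_of_le_of_lt (by positivity) hM
    exact_mod_cast this
  have hsmall : ∀ k < N, ∀ l, Good M k l → l ≠ [] ∧ (∀ x ∈ l, x ∈ sph N) ∧
      ∃ v ∈ sph N, ∀ x ∈ l, v ∈ P (lam x) ∧ ∀ k, x ∈ G k → v ∈ G k := by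
    intro k hk l hl
    have hne : l ≠ [] := by
      rintro rfl
      simpa using hl.1
    refine ⟨hne, fun x hx => (hl.2.1 x hx).1, ?_⟩
    obtain ⟨x₀, hx₀⟩ := List.exists_mem_of_ne_nil l hne
    obtain ⟨v, hv, hv'⟩ := hleb x₀ (hl.2.1 x₀ hx₀).1
    refine ⟨v, hv, fun x hx => ?_⟩
    have hd : dist x x₀ < ε := by
      refine lt_of_le_of_lt (hl.2.2 x hx x₀ hx₀) ?_
      have hM' : (0 : ℝ) < M := by exact_mod_cast hM0
      rw [div_lt_iff₀ hε] at hM
      rw [div_lt_iff₀ hM']
      have : (k : ℝ) ≤ N := by exact_mod_cast hk.le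
      linarith
    exact ⟨hv' x hd (Sum.inr (lam x)) (hlam x (hl.2.1 x hx).1), fun k hk => hv' x hd (Sum.inl k) hk⟩
  have hopp : ∀ a b : Lab (Fin N), a.1 = b.1 → a ≠ b → b = opp a := by
    rintro ⟨i, s⟩ ⟨j, t⟩ h hne
    simp only at h
    subst h
    have : s ≠ t := fun h => hne (by rw [h])
    unfold opp
    simp only [Prod.mk.injEq, true_and]
    exact F2.eq_add_one_of_ne this
  have hnc : ∀ k < N, ∀ l, Good M k l → ∀ x ∈ l, ∀ y ∈ l, (lam x).1 = (lam y).1 →
      lam x = lam y := by
    intro k hk l hl x hx y hy hxy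
    obtain ⟨-, -, v, hv, hv'⟩ := hsmall k hk l hl
    by_contra hne
    exact disj _ v hv (hv' x hx).1 (hopp _ _ hxy hne ▸ (hv' y hy).1)
  have hk : N - 1 < N := by omega
  let I : Co (Fin N → ℝ) →+ F2 := AddMonoidHom.mk' (cyc M (N - 1)) (cyc_add M (N - 1))
  have hI : ∀ φ, I φ = cyc M (N - 1) φ := fun φ => rfl
  have hI0 : ∀ φ, (∀ l, Good M (N - 1) l → φ l = 0) → I φ = 0 := by
    intro φ hφ
    by_contra hc
    obtain ⟨l, hl, hl'⟩ := cyc_ne_zero hM0 hk hc
    exact hl' (hφ l hl)
  have hIcongr : ∀ φ ψ, (∀ l, Good M (N - 1) l → φ l = ψ l) → I φ = I ψ := by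
    intro φ ψ h
    apply F2.eq_of_add_eq_zero
    rw [← map_add]
    apply hI0
    intro l hl
    rw [Pi.add_apply, h l hl, F2.add_self]
  have hIsum : ∀ {ι : Type} (s : Finset ι) (φ : ι → Co (Fin N → ℝ)),
      I (fun l => ∑ i ∈ s, φ i l) = ∑ i ∈ s, I (φ i) := by
    intro ι s φ
    rw [← map_sum]
    congr 1
    funext l
    rw [Finset.sum_apply]
  refine ⟨lam, I, (cyc_cob hM0 _).1, ?_, ?_⟩
  · intro φ hφ
    obtain ⟨l, hl, hl'⟩ := cyc_ne_zero hM0 hk hφ
    exact ⟨l, hl', hsmall _ hk l hl⟩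
  · -- all facets have the same value
    let val : (Fin N → F2) → F2 := fun σ => I (fun l => ind (facet σ) (l.map lam))
    have flip : ∀ σ (m : Fin N), val σ = val (Function.update σ m (σ m + 1)) := by
      intro σ m
      set R : Finset (Lab (Fin N)) := (facet σ).erase (m, σ m) with hR
      have h0 : I (cob (fun l => ind R (l.map lam))) = 0 := (cyc_cob hM0 _).1 _
      have h1 : cob (fun l => ind R (l.map lam)) =
          fun l => ∑ j ∈ Rᶜ, ind (insert j R) (l.map lam) := by
        funext l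
        rw [cob_map lam (ind R), cob_ind]
      rw [h1, hIsum Rᶜ (fun j l => ind (insert j R) (l.map lam))] at h0
      have hne : ((m, σ m) : Lab (Fin N)) ≠ (m, σ m + 1) := by simp
      rw [Finset.sum_eq_add_of_mem (m, σ m) (m, σ m + 1) (by simp [hR])
        (by simp [hR, mem_facet]) hne] at h0
      · have e1 : insert (m, σ m) R = facet σ := Finset.insert_erase (mem_facet.2 rfl)
        have e2 : insert (m, σ m + 1) R = facet (Function.update σ m (σ m + 1)) := by
          ext ⟨i, s⟩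
          simp only [hR, mem_insert, mem_erase, mem_facet, Prod.mk.injEq, ne_eq]
          by_cases hi : i = m
          · subst hi
            simp only [true_and, Function.update_self]
            tauto
          · simp [hi]
        rw [e1, e2] at h0
        exact F2.eq_of_add_eq_zero h0
      · rintro ⟨i, s⟩ hj ⟨hj1, hj2⟩
        apply hI0
        intro l hl
        by_contra hc
        have hc' := (ind_ne_zero hc).2
        have him : i ≠ m := by
          rintro rfl
          have a1 : s ≠ σ i := fun h => hj1 (by rw [h])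
          have a2 : s ≠ σ i + 1 := fun h => hj2 (by rw [h])
          exact a2 (F2.eq_add_one_of_ne a1.symm)
        have hs : s ≠ σ i := by
          intro h
          simp [hR, mem_facet, h, him] at hj
        have m1 : ((i, s) : Lab (Fin N)) ∈ (l.map lam).toFinset := hc' ▸ mem_insert_self _ _
        have m2 : ((i, σ i) : Lab (Fin N)) ∈ (l.map lam).toFinset := by
          rw [hc']
          apply mem_insert_of_mem
          simp [hR, mem_facet, him]
        simp only [List.mem_toFinset, List.mem_map] at m1 m2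
        obtain ⟨x, hx, hx'⟩ := m1
        obtain ⟨y, hy, hy'⟩ := m2
        have := hnc _ hk l hl x hx y hy (by rw [hx', hy'])
        rw [hx', hy'] at this
        exact hs (Prod.ext_iff.1 this).2
    have allEq : ∀ σ τ, val σ = val τ := by
      intro σ τ
      have : ∀ s : Finset (Fin N), val (fun i => if i ∈ s then τ i else σ i) = val σ := by
        intro s
        induction s using Finset.induction_on with
        | empty => simp
        | insert a s ha ih =>
          by_cases h : τ a = σ a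
          · rw [← ih]
            congr 1
            funext i
            by_cases hi : i = a
            · subst hi; simp [ha, h]
            · simp [hi]
          · rw [← ih, flip (fun i => if i ∈ s then τ i else σ i) a]
            congr 1
            funext i
            by_cases hi : i = a
            · subst hi
              simp only [mem_insert_self, if_true, Function.update_self, ha, if_false]
              generalize τ i = u at h
              generalize σ i = w at h
              revert u w; decide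
            · simp [hi]
      simpa using (this univ).symm
    obtain ⟨c, hc⟩ := kf_eq_sum (ι := Fin N)
    have h1 : I (fun l => kf (l.map lam)) = 1 := cyc_kf hM0 lam hodd hnc hk
    rw [hIcongr _ (fun l => ∑ σ, c σ * ind (facet σ) (l.map lam)) (by
      intro l hl
      apply hc
      rw [List.length_map, hl.1, Fintype.card_fin]
      omega), hIsum univ (fun σ l => c σ * ind (facet σ) (l.map lam))] at h1
    intro σ
    apply F2.eq_one_of_ne_zero
    intro h0
    rw [Finset.sum_eq_zero] at h1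
    · exact zero_ne_one h1
    · intro τ _
      have hτ : val τ = 0 := (allEq τ σ).trans h0
      by_cases hcτ : c τ = 0
      · apply hI0
        intro l _
        simp only [hcτ, zero_mul]
      · simp only [F2.eq_one_of_ne_zero hcτ, one_mul]
        exact hτ

/-- **Colourful facet theorem** (a form of the Borsuk–Ulam theorem): under the hypotheses of
`kyFan`, for every sign vector `σ` the sets `P (i, σ i)` have a common point on the sphere. -/
theorem exists_facet_point (hN : 0 < N) (P : Lab (Fin N) → Set (Fin N → ℝ))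
    (hP : ∀ a, IsClosed (P a))
    (cover : ∀ x ∈ sph N, ∃ a, x ∈ P a) (symm : ∀ a x, x ∈ P a → -x ∈ P (opp a))
    (disj : ∀ a, ∀ x ∈ sph N, x ∈ P a → x ∉ P (opp a)) (σ : Fin N → F2) :
    ∃ v ∈ sph N, ∀ i, v ∈ P (i, σ i) := by
  obtain ⟨lam, I, -, h2, h3⟩ := kyFan hN (κ := Empty) (fun k => k.elim) (fun k => k.elim) P hP
    cover symm disj
  obtain ⟨l, hl, -, -, v, hv, hv'⟩ := h2 _ (by rw [h3 σ]; exact one_ne_zero)
  refine ⟨v, hv, fun i => ?_⟩
  have : ((i, σ i) : Lab (Fin N)) ∈ (l.map lam).toFinset := by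
    rw [(ind_ne_zero hl).2]; exact mem_facet.2 rfl
  simp only [List.mem_toFinset, List.mem_map] at this
  obtain ⟨x, hx, hx'⟩ := this
  exact hx' ▸ (hv' x hx).1

end Crest.Agent.Lib.KyFan
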