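import Mathlib
import Crest.Agent.Lib.KyFan.Basic

/-!
The Borsuk–Ulam theorem, for the `ℓ¹` sphere and for the unit sphere of any finite-dimensional
normed space.
-/

namespace Crest.Agent.Lib.KyFan

/-- Borsuk–Ulam on the `ℓ¹` sphere: an odd continuous map `S^n → ℝ^n` has a zero. -/
theorem borsukUlam_sph {n : ℕ} (f : (Fin (n + 1) → ℝ) → (Fin n → ℝ))
    (hf : ContinuousOn f (sph (n + 1))) (hodd : ∀ x ∈ sph (n + 1), f (-x) = -f x) :
    ∃ x ∈ sph (n + 1), f x = 0 := by
  classical
  by_contra hc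
  push Not at hc
  let sg : F2 → ℝ := fun s => if s = 0 then 1 else -1
  have hsg : ∀ s, sg (s + 1) = -sg s := by
    intro s
    have : s = 0 ∨ s = 1 := by revert s; decide
    rcases this with rfl | rfl
    · simp [sg]
    · have : (1 + 1 : F2) = 0 := by decide
      simp [sg, this]
  have hsg0 : ∀ s, sg s ≠ 0 := by
    intro s; simp only [sg]; split_ifs <;> simp
  let P : Lab (Fin (n + 1)) → Set (Fin (n + 1) → ℝ) := fun a =>
    {x | x ∈ sph (n + 1) ∧ ∃ h : (a.1 : ℕ) < n, f x ⟨a.1, h⟩ = sg a.2 * ‖f x‖}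
  obtain ⟨v, -, hv⟩ := exists_facet_point (Nat.succ_pos n) P (by
      intro a
      by_cases h : (a.1 : ℕ) < n
      · have : P a = sph (n + 1) ∩ (fun x => f x ⟨a.1, h⟩ - sg a.2 * ‖f x‖) ⁻¹' {0} := by
          ext x
          simp [P, h, sub_eq_zero]
        rw [this]
        refine ContinuousOn.preimage_isClosed_of_isClosed ?_ isClosed_sph isClosed_singleton
        exact ((continuous_apply _).comp_continuousOn hf).sub (continuousOn_const.mul hf.norm)
      · have : P a = ∅ := by
          ext x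
          simp [P, h]
        rw [this]
        exact isClosed_empty)
    (by
      intro x hx
      have hn : Nonempty (Fin n) := by
        by_contra h
        rw [not_nonempty_iff] at h
        exact hc x hx (Subsingleton.elim _ _)
      obtain ⟨i, hi⟩ := (IsGreatest.pi_norm (f x)).1
      simp only [Real.norm_eq_abs] at hi
      rcases le_total 0 (f x i) with h | h
      · exact ⟨(i.castSucc, 0), hx, i.2, by simp [sg, ← hi, abs_of_nonneg h]⟩
      · exact ⟨(i.castSucc, 1), hx, i.2, by simp [sg, ← hi, abs_of_nonpos h]⟩)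
    (by
      rintro a x ⟨hx, h, h'⟩
      refine ⟨sph_neg hx, h, ?_⟩
      simp only [opp, hodd x hx, Pi.neg_apply, norm_neg, hsg, h']
      ring)
    (by
      rintro a x hx ⟨-, h, h'⟩ ⟨-, h2, h2'⟩
      simp only [opp, hsg] at h2'
      have : sg a.2 * ‖f x‖ = 0 := by
        have e : f x ⟨a.1, h⟩ = -sg a.2 * ‖f x‖ := h2'
        linarith
      rcases mul_eq_zero.1 this with h | h
      · exact hsg0 _ h
      · exact hc x hx (norm_eq_zero.1 h))
    (fun _ => 0)
  obtain ⟨-, h, -⟩ := hv (Fin.last n)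
  simp at h

/-- **Borsuk–Ulam theorem**: an odd map, continuous on the unit sphere of a real normed space `E`,
into a real normed space `F` of smaller finite dimension has a zero on the sphere. -/
theorem borsukUlam {E F : Type*} [NormedAddCommGroup E] [NormedSpace ℝ E]
    [NormedAddCommGroup F] [NormedSpace ℝ F] [FiniteDimensional ℝ F]
    (hdim : Module.finrank ℝ F < Module.finrank ℝ E) (f : E → F)
    (hf : ContinuousOn f (Metric.sphere 0 1)) (hodd : ∀ x ∈ Metric.sphere (0 : E) 1, f (-x) = -f x) :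
    ∃ x ∈ Metric.sphere (0 : E) 1, f x = 0 := by
  set n := Module.finrank ℝ F with hn
  have : FiniteDimensional ℝ E := Module.finite_of_finrank_pos (by omega)
  obtain ⟨b, hb⟩ := exists_linearIndependent_of_le_finrank (R := ℝ) (M := E) (n := n + 1) hdim
  let Θ : (Fin (n + 1) → ℝ) →ₗ[ℝ] E := Fintype.linearCombination ℝ b
  have hΘ : Function.Injective Θ := hb.fintypeLinearCombination_injective
  have hΘc : Continuous Θ := Θ.continuous_of_finiteDimensional
  have hΘ0 : ∀ x ∈ sph (n + 1), Θ x ≠ 0 := fun x hx h =>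
    sph_ne_zero hx (hΘ (h.trans (map_zero Θ).symm))
  let e : F ≃L[ℝ] (Fin n → ℝ) := ContinuousLinearEquiv.ofFinrankEq (by simp [hn])
  have hmem : ∀ x ∈ sph (n + 1), ‖Θ x‖⁻¹ • Θ x ∈ Metric.sphere (0 : E) 1 := by
    intro x hx
    rw [mem_sphere_zero_iff_norm, norm_smul, norm_inv, norm_norm,
      inv_mul_cancel₀ (norm_ne_zero_iff.2 (hΘ0 x hx))]
  obtain ⟨x, hx, h⟩ := borsukUlam_sph (fun x => e (f (‖Θ x‖⁻¹ • Θ x))) (by
      refine e.continuous.comp_continuousOn (hf.comp ?_ hmem)
      exact (hΘc.norm.continuousOn.inv₀ fun x hx => norm_ne_zero_iff.2 (hΘ0 x hx)).smul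
        hΘc.continuousOn)
    (by
      intro x hx
      simp only [map_neg, norm_neg, smul_neg]
      rw [hodd _ (hmem x hx), map_neg])
  exact ⟨_, hmem x hx, by simpa using h⟩

end Crest.Agent.Lib.KyFan
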